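import Vale.Agent.P073Z.ACC.Sk

/-!
# Volumes of the cubes
-/

open Set Metric Topology Filter MeasureTheory
open scoped ENNReal NNReal

namespace P073

namespace Cube

variable {Ω : Set E3} {P : Par}

theorem cont_nu (P : Par) (j : Fin P.N) : Continuous (P.nu j) := by
  refine continuous_pi fun i => ?_
  unfold Par.nu
  fun_prop

theorem vol_pre (nu_lam : ∀ j ξ, P.nu j (P.w + P.Lam j ξ) = ξ)
    (lam_nu : ∀ j x, P.w + P.Lam j (P.nu j x) = x) (j : Fin P.N) (X : Set E3) :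
    volume (P.nu j ⁻¹' X) = P.vol j * volume X := by
  have e : P.nu j ⁻¹' X = (fun x => P.w + x) '' (P.Lam j '' X) := by
    ext x
    constructor
    · intro hx
      exact ⟨_, ⟨_, hx, rfl⟩, lam_nu j x⟩
    · rintro ⟨_, ⟨ξ, hξ, rfl⟩, rfl⟩
      show P.nu j (P.w + P.Lam j ξ) ∈ X
      rwa [nu_lam]
  rw [e, image_add_left, measure_preimage_add, Measure.addHaar_image_continuousLinearMap]
  rfl

theorem volume_ucube (z : Fin 3 → ℤ) : volume (ucube z) = 1 := by
  rw [ucube, Real.volume_Icc_pi]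
  simp

theorem vol_cube (nu_lam : ∀ j ξ, P.nu j (P.w + P.Lam j ξ) = ξ)
    (lam_nu : ∀ j x, P.w + P.Lam j (P.nu j x) = x) : ∀ j z, volume (P.cube j z) = P.vol j := by
  intro j z
  rw [Par.cube, vol_pre nu_lam lam_nu, volume_ucube, mul_one]

theorem vol_le (hη : 0 ≤ P.η) (lam_le : ∀ j ξ, ‖P.Lam j ξ‖ ≤ (P.T j).b * P.η * ‖ξ‖) :
    ∀ j, P.vol j ≤ ENNReal.ofReal (6 * ((P.T j).b * P.η) ^ 3) := by
  intro j
  refine ENNReal.ofReal_le_ofReal ?_
  have h := Matrix.det_le (A := LinearMap.toMatrix' (P.Lam j : E3 →ₗ[ℝ] E3))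
    (abv := AbsoluteValue.abs) (x := (P.T j).b * P.η) (fun i k => by
      rw [LinearMap.toMatrix'_apply]
      refine le_trans (norm_le_pi_norm (P.Lam j _) i) ((lam_le j _).trans ?_)
      refine mul_le_of_le_one_right (by positivity) ?_
      rw [Pi.norm_single, norm_one])
  rw [LinearMap.det_toMatrix'] at h
  simpa [Nat.factorial] using h

theorem vol_map (nu_lam : ∀ j ξ, P.nu j (P.w + P.Lam j ξ) = ξ)
    (lam_nu : ∀ j x, P.w + P.Lam j (P.nu j x) = x) :
    ∀ j (g : E3 → ℝ≥0∞) (X : Set E3), MeasurableSet X →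
    ∫⁻ x in P.nu j ⁻¹' X, g (P.nu j x) = P.vol j * ∫⁻ ξ in X, g ξ := by
  intro j g X _
  let e : E3 ≃ₜ E3 :=
    { toFun := P.nu j
      invFun := fun ξ => P.w + P.Lam j ξ
      left_inv := lam_nu j
      right_inv := nu_lam j
      continuous_toFun := cont_nu P j
      continuous_invFun := by fun_prop }
  have he : MeasurableEmbedding (P.nu j) := e.measurableEmbedding
  have hm : Measure.map (P.nu j) volume = P.vol j • (volume : Measure E3) := by
    ext s hs
    rw [Measure.map_apply he.measurable hs, vol_pre nu_lam lam_nu, Measure.smul_apply, smul_eq_mul]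
  rw [← he.lintegral_map, ← he.restrict_map, hm, Measure.restrict_smul, lintegral_smul_measure,
    smul_eq_mul]

theorem count (nu_lam : ∀ j ξ, P.nu j (P.w + P.Lam j ξ) = ξ)
    (lam_nu : ∀ j x, P.w + P.Lam j (P.nu j x) = x) (j : Fin P.N) {Z : Set (Fin 3 → ℤ)}
    {Y : Set E3} (h : ∀ z ∈ Z, P.cube j z ⊆ Y) : (Z.encard : ℝ≥0∞) * P.vol j ≤ volume Y := by
  let Q : (Fin 3 → ℤ) → Set E3 := fun z => Set.pi univ fun i => Ico (z i : ℝ) (z i + 1)
  have hQm : ∀ z, MeasurableSet (Q z) := fun z =>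
    MeasurableSet.univ_pi fun i => measurableSet_Ico
  have hQv : ∀ z, volume (P.nu j ⁻¹' Q z) = P.vol j := fun z => by
    rw [vol_pre nu_lam lam_nu, Real.volume_pi_Ico]
    simp
  have hd : Pairwise (Function.onFun Disjoint fun z : Z => P.nu j ⁻¹' Q z) := by
    intro z z' hne
    refine Set.disjoint_left.2 fun x hx hx' => hne (Subtype.ext (funext fun i => ?_))
    have h1 : ⌊P.nu j x i⌋ = z.1 i := Int.floor_eq_iff.2 (hx i (mem_univ i))
    have h2 : ⌊P.nu j x i⌋ = z'.1 i := Int.floor_eq_iff.2 (hx' i (mem_univ i))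
    rw [← h1, h2]
  rw [← ENNReal.tsum_set_const]
  calc ∑' z : Z, P.vol j = ∑' z : Z, volume (P.nu j ⁻¹' Q z) := by simp only [hQv]
    _ = volume (⋃ z : Z, P.nu j ⁻¹' Q z) :=
        (measure_iUnion hd fun z => (cont_nu P j).measurable (hQm z)).symm
    _ ≤ volume Y := measure_mono (iUnion_subset fun z x hx => h z z.2
        ⟨fun i => (hx i (mem_univ i)).1, fun i => (hx i (mem_univ i)).2.le⟩)

theorem cube_buf {j : Fin P.N} {z : Fin 3 → ℤ} (hz : z ∈ P.Buf j) : P.cube j z ⊆ P.BufSet j :=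
  fun _ hx => ⟨z, hz, hx⟩

theorem count_inner (nu_lam : ∀ j ξ, P.nu j (P.w + P.Lam j ξ) = ξ)
    (lam_nu : ∀ j x, P.w + P.Lam j (P.nu j x) = x) (inner_buf : ∀ j, P.Inner j ⊆ P.Buf j)
    (buf_U : ∀ j, P.BufSet j ⊆ P.U j) :
    ∀ j, ((P.Inner j).encard : ℝ≥0∞) * P.vol j ≤ volume (P.U j) := fun j =>
  count nu_lam lam_nu j fun _ hz => (cube_buf (inner_buf j hz)).trans (buf_U j)

theorem count_buf (nu_lam : ∀ j ξ, P.nu j (P.w + P.Lam j ξ) = ξ)
    (lam_nu : ∀ j x, P.w + P.Lam j (P.nu j x) = x) (buf_U : ∀ j, P.BufSet j ⊆ P.U j)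
    (K_disj : ∀ j z, z ∉ P.Inner j → Disjoint (P.cube j z) (P.K j)) :
    ∀ j, ((P.Buf j \ P.Inner j).encard : ℝ≥0∞) * P.vol j ≤ volume (P.U j \ P.K j) := fun j =>
  count nu_lam lam_nu j fun z hz =>
    subset_sdiff.2 ⟨(cube_buf hz.1).trans (buf_U j), K_disj j z hz.2⟩

open Classical in
/-- a point lies in at most eight cubes -/
theorem card_le (s : Finset (Fin 3 → ℤ)) (ξ : E3) : (s.filter fun z => ξ ∈ ucube z).card ≤ 8 := by
  have h : (s.filter fun z => ξ ∈ ucube z) ⊆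
      Fintype.piFinset fun i => ({⌊ξ i⌋ - 1, ⌊ξ i⌋} : Finset ℤ) := by
    intro z hz
    have h1 := (Finset.mem_filter.1 hz).2
    refine Fintype.mem_piFinset.2 fun i => ?_
    have h2 : z i ≤ ⌊ξ i⌋ := Int.le_floor.2 (h1.1 i)
    have h3 : ⌊ξ i⌋ ≤ z i + 1 := by
      have h4 : ξ i ≤ ((z i + 1 : ℤ) : ℝ) := by
        push_cast
        exact h1.2 i
      simpa using Int.floor_mono h4
    simp only [Finset.mem_insert, Finset.mem_singleton]
    omega
  refine (Finset.card_le_card h).trans ?_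
  rw [Fintype.card_piFinset]
  exact (Finset.prod_le_pow_card _ _ 2 fun i _ => Finset.card_le_two).trans (by simp)

theorem measurableSet_cube (j : Fin P.N) (z : Fin 3 → ℤ) : MeasurableSet (P.cube j z) :=
  (cont_nu P j).measurable measurableSet_Icc

theorem sum_ind (buf_U : ∀ j, P.BufSet j ⊆ P.U j) (j : Fin P.N) (s : Finset (Fin 3 → ℤ))
    (g : E3 → ℝ≥0∞) (hs : (s : Set (Fin 3 → ℤ)) ⊆ P.Buf j) (x : E3) :
    ∑ z ∈ s, (P.cube j z).indicator g x ≤ 8 * (P.U j).indicator g x := by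
  classical
  have h1 : ∑ z ∈ s, (P.cube j z).indicator g x ≤
      ∑ _ ∈ s.filter (fun z => P.nu j x ∈ ucube z), (P.U j).indicator g x := by
    rw [Finset.sum_filter]
    refine Finset.sum_le_sum fun z hz => ?_
    by_cases hx : x ∈ P.cube j z
    · rw [if_pos (show P.nu j x ∈ ucube z from hx), indicator_of_mem hx,
        indicator_of_mem (buf_U j (cube_buf (hs hz) hx))]
    · rw [indicator_of_notMem hx]
      exact zero_le
  refine h1.trans ?_
  rw [Finset.sum_const, nsmul_eq_mul]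
  refine mul_le_mul_left ?_ _
  have := card_le s (P.nu j x)
  exact_mod_cast (by convert this)

theorem sum_lam (buf_U : ∀ j, P.BufSet j ⊆ P.U j) :
    ∀ j (s : Finset (Fin 3 → ℤ)) (g : E3 → ℝ≥0∞), (s : Set (Fin 3 → ℤ)) ⊆ P.Buf j →
    Measurable g → ∑ z ∈ s, P.lam j (P.cube j z) g ≤ 8 * P.lam j (P.U j) g := by
  intro j s g hs hg
  unfold Par.lam
  rw [Finset.sum_comm, Finset.mul_sum]
  refine Finset.sum_le_sum fun c _ => ?_
  rw [← Finset.mul_sum, mul_left_comm]
  refine mul_le_mul_right ?_ _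
  unfold lint
  rw [← lintegral_finsetSum _ fun z _ => hg.indicator (measurableSet_cube j z),
    ← lintegral_const_mul' _ _ ENNReal.ofNat_ne_top]
  exact lintegral_mono fun x => sum_ind buf_U j s g hs x

theorem sum_U (U_sub : ∀ j, P.U j ⊆ Ω) (U_disj : ∀ j j', j ≠ j' → Disjoint (P.U j) (P.U j')) :
    ∑ j, volume (P.U j) ≤ volume Ω := by
  rw [← tsum_fintype (L := SummationFilter.unconditional _),
    ← measure_iUnion (fun j j' h => U_disj j j' h) fun j => isOpen_thickening.measurableSet]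
  exact measure_mono (iUnion_subset U_sub)

end Cube

end P073
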