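import Vale.Agent.P073Z.ACC.Sk

/-!
# Cubes: linear algebra and lattice geometry
-/

open Set Metric Topology Filter MeasureTheory
open scoped ENNReal NNReal

namespace P073.Cube

variable {Ω : Set E3} {P : Par}

/-- the scales -/
noncomputable def sc (P : Par) (j : Fin P.N) (i : Fin 3) : ℝ :=
  if (i : ℕ) < (P.T j).r then P.η / P.m j else P.η

theorem eta_pos : 0 < P.η := by unfold Par.η; positivity

theorem eta_le : P.η ≤ 1 := pow_le_one₀ (by norm_num) (by norm_num)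

theorem m_ge (hO : P.Ok Ω) (j : Fin P.N) : (1 : ℝ) ≤ P.m j := by exact_mod_cast hO.m_pos j

theorem b_ge (j : Fin P.N) : (1 : ℝ) ≤ (P.T j).b := by exact_mod_cast (P.T j).b_pos

theorem a_pos (hO : P.Ok Ω) (j : Fin P.N) : 0 < P.a j :=
  div_pos eta_pos (by linarith [m_ge hO j])

theorem a_le (hO : P.Ok Ω) (j : Fin P.N) : P.a j ≤ P.η := div_le_self eta_pos.le (m_ge hO j)

theorem sc_mem (hO : P.Ok Ω) (j : Fin P.N) (i : Fin 3) : P.a j ≤ sc P j i ∧ sc P j i ≤ P.η := by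
  unfold sc
  split_ifs
  exacts [⟨le_rfl, a_le hO j⟩, ⟨a_le hO j, le_rfl⟩]

theorem sc_pos (hO : P.Ok Ω) (j : Fin P.N) (i : Fin 3) : 0 < sc P j i :=
  (a_pos hO j).trans_le (sc_mem hO j i).1

theorem lam_apply (j : Fin P.N) (ξ : E3) : P.Lam j ξ = (P.T j).L fun i => sc P j i * ξ i := rfl

theorem nu_apply (j : Fin P.N) (x : E3) (i : Fin 3) :
    P.nu j x i = (P.T j).L.symm (x - P.w) i / sc P j i := rfl

theorem nu_lam (hO : P.Ok Ω) (j : Fin P.N) (ξ : E3) : P.nu j (P.w + P.Lam j ξ) = ξ := by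
  funext i
  rw [nu_apply, add_sub_cancel_left, lam_apply, ContinuousLinearEquiv.symm_apply_apply]
  exact mul_div_cancel_left₀ _ (sc_pos hO j i).ne'

theorem lam_nu (hO : P.Ok Ω) (j : Fin P.N) (x : E3) : P.w + P.Lam j (P.nu j x) = x := by
  rw [lam_apply, show (fun i => sc P j i * P.nu j x i) = (P.T j).L.symm (x - P.w) from
    funext fun i => mul_div_cancel₀ _ (sc_pos hO j i).ne', ContinuousLinearEquiv.apply_symm_apply,
    add_sub_cancel]

theorem L_le (j : Fin P.N) (v : E3) : ‖(P.T j).L v‖ ≤ (P.T j).b * ‖v‖ :=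
  ((P.T j).L : E3 →L[ℝ] E3).le_of_opNorm_le (P.T j).normL v

theorem le_L (j : Fin P.N) (v : E3) : ‖v‖ ≤ (P.T j).b * ‖(P.T j).L v‖ := by
  simpa using ((P.T j).L.symm : E3 →L[ℝ] E3).le_of_opNorm_le (P.T j).normLi ((P.T j).L v)

theorem lam_le' (j : Fin P.N) (ξ : E3) {c : ℝ} (hc : 0 ≤ c)
    (h : ∀ i, |sc P j i * ξ i| ≤ c * |ξ i|) : ‖P.Lam j ξ‖ ≤ (P.T j).b * c * ‖ξ‖ := by
  rw [lam_apply, mul_assoc]
  refine (L_le j _).trans (mul_le_mul_of_nonneg_left ((pi_norm_le_iff_of_nonneg (by positivity)).2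
    fun i => (h i).trans (mul_le_mul_of_nonneg_left (norm_le_pi_norm ξ i) hc)) (by positivity))

theorem lam_le (hO : P.Ok Ω) (j : Fin P.N) (ξ : E3) : ‖P.Lam j ξ‖ ≤ (P.T j).b * P.η * ‖ξ‖ :=
  lam_le' j ξ eta_pos.le fun i => by
    rw [abs_mul, abs_of_pos (sc_pos hO j i)]
    exact mul_le_mul_of_nonneg_right (sc_mem hO j i).2 (abs_nonneg _)

theorem mem_I {j : Fin P.N} {i : Fin 3} : i ∈ (P.T j).I ↔ ¬ (i : ℕ) < (P.T j).r := by simp [Ty.I]

theorem lam_flat (hO : P.Ok Ω) (j : Fin P.N) (ξ : E3) (h : ∀ i ∈ (P.T j).I, ξ i = 0) :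
    ‖P.Lam j ξ‖ ≤ (P.T j).b * P.a j * ‖ξ‖ :=
  lam_le' j ξ (a_pos hO j).le fun i => by
    by_cases hi : i ∈ (P.T j).I
    · simp [h i hi]
    · rw [abs_mul, abs_of_pos (sc_pos hO j i), sc, if_pos (not_not.1 (mt mem_I.2 hi))]
      exact le_rfl

theorem lam_ge (hO : P.Ok Ω) (j : Fin P.N) (ξ : E3) :
    ‖ξ‖ ≤ (P.T j).b / P.a j * ‖P.Lam j ξ‖ := by
  have a0 := a_pos hO j
  refine (pi_norm_le_iff_of_nonneg (by positivity)).2 fun i => ?_
  have h1 := (norm_le_pi_norm (fun i => sc P j i * ξ i) i).trans (le_L j _)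
  rw [norm_mul, Real.norm_of_nonneg (sc_pos hO j i).le, ← lam_apply] at h1
  rw [div_mul_eq_mul_div, le_div_iff₀' a0]
  exact (mul_le_mul_of_nonneg_right (sc_mem hO j i).1 (norm_nonneg _)).trans h1

theorem lam_dgs (hO : P.Ok Ω) (j : Fin P.N) (X : E3 →L[ℝ] E3) : ‖X‖ ≤
    (P.T j).b / P.a j * ‖(X.comp (P.Lam j)).comp (dgs (P.T j).I (P.m j : ℝ)⁻¹)‖ := by
  have a0 := a_pos hO j
  refine X.opNorm_le_bound (by positivity) fun v => ?_
  have e : P.Lam j (dgs (P.T j).I (P.m j : ℝ)⁻¹ ((P.T j).L.symm v)) = P.a j • v := by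
    rw [lam_apply, ← (P.T j).L.apply_symm_apply (P.a j • v), map_smul]
    congr 1
    funext i
    change sc P j i * ((if i ∈ (P.T j).I then (P.m j : ℝ)⁻¹ else 1) * (P.T j).L.symm v i) =
      P.a j * (P.T j).L.symm v i
    by_cases hi : (i : ℕ) < (P.T j).r
    · rw [sc, if_pos hi, if_neg (fun h => mem_I.1 h hi), one_mul, Par.a]
    · rw [sc, if_neg hi, if_pos (mem_I.2 hi), Par.a, div_eq_mul_inv, mul_assoc]
  have h1 := ((X.comp (P.Lam j)).comp (dgs (P.T j).I (P.m j : ℝ)⁻¹)).le_opNorm ((P.T j).L.symm v)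
  have h2 := le_L j ((P.T j).L.symm v)
  rw [ContinuousLinearMap.comp_apply, ContinuousLinearMap.comp_apply, e, map_smul, norm_smul,
    Real.norm_of_nonneg a0.le] at h1
  rw [ContinuousLinearEquiv.apply_symm_apply] at h2
  rw [div_mul_eq_mul_div, div_mul_eq_mul_div, le_div_iff₀' a0]
  exact (h1.trans (mul_le_mul_of_nonneg_left h2 (norm_nonneg _))).trans_eq (by ring)

theorem B_ker (j : Fin P.N) : ∀ i ∈ (P.T j).I, P.B j (Pi.single i 1) = 0 := fun i hi => by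
  have e : (fun k => sc P j k * (Pi.single i 1 : E3) k) = sc P j i • (Pi.single i 1 : E3) := by
    funext k
    by_cases h : k = i <;> simp [h]
  change (P.T j).A (P.Lam j _) = 0
  rw [lam_apply, e, map_smul, map_smul, (P.T j).ker i (not_lt.1 (mem_I.1 hi)), smul_zero]

theorem B_le (hO : P.Ok Ω) (j : Fin P.N) : ‖P.B j‖ ≤ (P.T j).b ^ 2 * P.a j := by
  have a0 := a_pos hO j
  refine (P.B j).opNorm_le_bound (by positivity) fun ξ => ?_
  set ζ : E3 := fun i => if i ∈ (P.T j).I then 0 else ξ i with hζ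
  have e : ξ = ζ + ∑ i ∈ (P.T j).I, ξ i • Pi.single i 1 := by
    funext k
    by_cases h : k ∈ (P.T j).I <;> simp [hζ, h, Finset.sum_apply, Pi.single_apply]
  have h1 : ‖ζ‖ ≤ ‖ξ‖ := (pi_norm_le_iff_of_nonneg (norm_nonneg _)).2 fun i => by
    by_cases h : i ∈ (P.T j).I
    · simp [hζ, h]
    · simpa [hζ, h] using norm_le_pi_norm ξ i
  have h2 : P.B j ξ = (P.T j).A (P.Lam j ζ) := by
    rw [e, map_add, map_sum, Finset.sum_eq_zero fun i hi => by
      rw [map_smul, B_ker j i hi, smul_zero], add_zero]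
    rfl
  have h3 := (lam_flat hO j ζ fun i hi => if_pos hi).trans
    (mul_le_mul_of_nonneg_left h1 (by positivity))
  rw [h2]
  exact (((P.T j).A.le_of_opNorm_le (P.T j).normA _).trans
    (mul_le_mul_of_nonneg_left h3 (by positivity))).trans_eq (by ring)

theorem card_I (j : Fin P.N) : (P.T j).I.card + (P.T j).r = 3 := by
  have h1 := (P.T j).r_le
  unfold Ty.I
  generalize (P.T j).r = r at h1
  interval_cases r <;> rfl

theorem nu_cont (j : Fin P.N) : Continuous (P.nu j) := by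
  unfold Par.nu
  fun_prop

theorem preimage_nu (hO : P.Ok Ω) (j : Fin P.N) (X : Set E3) :
    P.nu j ⁻¹' X = (fun ξ => P.w + P.Lam j ξ) '' X :=
  Set.ext fun x => ⟨fun h => ⟨_, h, lam_nu hO j x⟩, by
    rintro ⟨ξ, h, rfl⟩
    rwa [mem_preimage, nu_lam hO]⟩

theorem compact_cube (hO : P.Ok Ω) (j : Fin P.N) (z : Fin 3 → ℤ) : IsCompact (P.cube j z) := by
  rw [Par.cube, preimage_nu hO]
  exact isCompact_Icc.image (by fun_prop)

theorem compact_box (hO : P.Ok Ω) (j : Fin P.N) (z : Fin 3 → ℤ) (J : Finset (Fin 3)) :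
    IsCompact (P.box j z J) := by
  rw [Par.box, preimage_nu hO]
  refine IsCompact.image (isCompact_Icc.inter_right ?_) (by fun_prop)
  have : IsClosed (⋂ i ∈ J, {ξ : E3 | ξ i = z i}) :=
    isClosed_biInter fun i _ => isClosed_eq (continuous_apply i) continuous_const
  have h : (⋂ i ∈ J, {ξ : E3 | ξ i = z i}) = {ξ : E3 | ∀ i ∈ J, ξ i = z i} :=
    Set.ext fun _ => mem_iInter₂
  rwa [h] at this

theorem finite_of_bdd {s : Set (Fin 3 → ℤ)} {X : Set E3} (hX : Bornology.IsBounded X)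
    (h : ∀ z ∈ s, ∃ ξ ∈ X, ξ ∈ ucube z) : s.Finite := by
  obtain ⟨R, hR⟩ := hX.exists_norm_le
  refine (finite_Icc (fun _ => -⌈R⌉ - 1) fun _ => ⌈R⌉).subset fun z hz => ?_
  obtain ⟨ξ, h1, h2⟩ := h z hz
  have h3 := fun i => abs_le.1 ((norm_le_pi_norm ξ i).trans (hR ξ h1))
  have h4 := Int.le_ceil R
  refine ⟨fun i => ?_, fun i => ?_⟩
  · have : ((-⌈R⌉ - 1 : ℤ) : ℝ) ≤ z i := by push_cast; linarith [(h3 i).1, h2.2 i]
    exact_mod_cast this
  · have : (z i : ℝ) ≤ (⌈R⌉ : ℤ) := by linarith [(h3 i).2, h2.1 i]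
    exact_mod_cast this

theorem inner_fin (hO : P.Ok Ω) (j : Fin P.N) : (P.Inner j).Finite :=
  finite_of_bdd ((hO.compact j).image (nu_cont j)).isBounded
    fun _ ⟨x, h1, h2⟩ => ⟨_, ⟨x, h1, rfl⟩, h2⟩

theorem compact_inner (hO : P.Ok Ω) (j : Fin P.N) : IsCompact (⋃ z ∈ P.Inner j, ucube z) :=
  (inner_fin hO j).isCompact_biUnion fun _ _ => isCompact_Icc

theorem buf_fin (hO : P.Ok Ω) (j : Fin P.N) : (P.Buf j).Finite :=
  finite_of_bdd ((compact_inner hO j).isBounded.cthickening (δ := 3)) fun z hz =>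
    have : (fun i => (z i : ℝ)) ∈ ucube z := ⟨le_rfl, fun i => by simp⟩
    ⟨_, hz this, this⟩

theorem inner_buf (j : Fin P.N) : P.Inner j ⊆ P.Buf j := fun _ hz =>
  (subset_biUnion_of_mem (u := ucube) hz).trans (self_subset_cthickening _)

theorem exists_near (hO : P.Ok Ω) (j : Fin P.N) {ξ : E3}
    (h : ξ ∈ cthickening 3 (⋃ z ∈ P.Inner j, ucube z)) :
    ∃ z ∈ P.Inner j, ∃ y ∈ ucube z, dist ξ y ≤ 3 := by
  rw [(compact_inner hO j).cthickening_eq_biUnion_closedBall (by norm_num)] at h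
  simp only [mem_iUnion, exists_prop] at h
  obtain ⟨y, ⟨z, h1, h2⟩, h3⟩ := h
  exact ⟨z, h1, y, h2, h3⟩

theorem cthick_buf (hO : P.Ok Ω) (j : Fin P.N) :
    cthickening 3 (⋃ z ∈ P.Inner j, ucube z) ⊆ ⋃ z ∈ P.Buf j, ucube z := fun ξ h => by
  obtain ⟨z, h1, y, h2, h3⟩ := exists_near hO j h
  have h4 : ∀ i, (z i : ℝ) - 3 ≤ ξ i ∧ ξ i ≤ z i + 4 := fun i => by
    have := abs_le.1 ((dist_le_pi_dist ξ y i).trans h3)
    constructor <;> linarith [this.1, this.2, h2.1 i, h2.2 i]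
  refine mem_biUnion (x := fun i => min ⌊ξ i⌋ (z i + 3)) (fun v hv => ?_) ⟨fun i => ?_, fun i => ?_⟩
  · refine mem_cthickening_of_dist_le v (fun i => max (z i : ℝ) (min (v i) (z i + 1))) 3 _
      (mem_biUnion h1 ⟨fun i => le_max_left _ _, fun i => max_le (by simp) (min_le_right _ _)⟩)
      ((dist_pi_le_iff (by norm_num)).2 fun i => ?_)
    have h5 : z i - 3 ≤ ⌊ξ i⌋ := Int.le_floor.2 (by push_cast; exact (h4 i).1)
    have h6 : ((z i - 3 : ℤ) : ℝ) ≤ (min ⌊ξ i⌋ (z i + 3) : ℤ) := by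
      exact_mod_cast le_min h5 (by omega)
    have h7 : ((min ⌊ξ i⌋ (z i + 3) : ℤ) : ℝ) ≤ (z i + 3 : ℤ) := by exact_mod_cast min_le_right _ _
    have h8 := h6.trans (hv.1 i)
    have h9 := (hv.2 i).trans (add_le_add h7 le_rfl)
    push_cast at h8 h9
    rw [Real.dist_eq, abs_le, max_def, min_def]
    split_ifs <;> constructor <;> linarith
  · exact (Int.cast_le.2 (min_le_left _ _)).trans (Int.floor_le _)
  · push_cast
    rw [← min_add_add_right]
    exact le_min (Int.lt_floor_add_one _).le (by linarith [(h4 i).2])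

theorem thick_buf (hO : P.Ok Ω) (j : Fin P.N) :
    thickening 2 (⋃ z ∈ P.Inner j, ucube z) ⊆ ⋃ z ∈ P.Buf j, ucube z :=
  ((thickening_subset_cthickening _ _).trans (cthickening_mono (by norm_num) _)).trans
    (cthick_buf hO j)

theorem thick_U (hO : P.Ok Ω) (j : Fin P.N) :
    P.nu j ⁻¹' cthickening 3 (⋃ z ∈ P.Inner j, ucube z) ⊆ P.U j := fun x hx => by
  obtain ⟨z, ⟨x₀, h0, h1⟩, y, h2, h3⟩ := exists_near hO j hx
  have h4 : dist y (P.nu j x₀) ≤ 1 := (dist_pi_le_iff zero_le_one).2 fun i => by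
    rw [Real.dist_eq, abs_le]
    constructor <;> linarith [h1.1 i, h1.2 i, h2.1 i, h2.2 i]
  have h5 := lam_le hO j (P.nu j x - P.nu j x₀)
  have h6 : P.Lam j (P.nu j x - P.nu j x₀) = x - x₀ := by
    rw [map_sub, ← add_sub_add_left_eq_sub _ _ P.w, lam_nu hO, lam_nu hO]
  rw [h6, ← dist_eq_norm, ← dist_eq_norm] at h5
  have h7 := mul_pos (zero_lt_one.trans_le (b_ge j)) (eta_pos (P := P))
  refine mem_thickening_iff.2 ⟨x₀, h0, ?_⟩
  nlinarith [dist_triangle (P.nu j x) y (P.nu j x₀)]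

theorem fine_buf (j : Fin P.N) : P.Fine j ⊆ P.BufSet j := fun _ ⟨z, h1, h2⟩ =>
  ⟨z, inner_buf j h1, h2.1⟩

theorem buf_U (hO : P.Ok Ω) (j : Fin P.N) : P.BufSet j ⊆ P.U j := fun _ ⟨_, h1, h2⟩ =>
  thick_U hO j (h1 h2)

theorem U_sub (hO : P.Ok Ω) (j : Fin P.N) : P.U j ⊆ Ω := fun x hx => by
  have h7 := mul_pos (zero_lt_one.trans_le (b_ge j)) (eta_pos (P := P))
  exact (hO.big j x (cthickening_mono (by nlinarith) _ (thickening_subset_cthickening _ _ hx))).1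

theorem K_U (j : Fin P.N) : P.K j ⊆ P.U j :=
  self_subset_thickening (by
    nlinarith [mul_pos (zero_lt_one.trans_le (b_ge j)) (eta_pos (P := P))]) _

theorem U_disj (hO : P.Ok Ω) (j j' : Fin P.N) (h : j ≠ j') : Disjoint (P.U j) (P.U j') :=
  disjoint_left.2 fun x h1 h2 => by
    obtain ⟨y, h3, h4⟩ := mem_thickening_iff.1 h1
    obtain ⟨y', h3', h4'⟩ := mem_thickening_iff.1 h2
    nlinarith [hO.sep j j' h y h3 y' h3', dist_triangle_left y y' x,
      mul_pos (zero_lt_one.trans_le (b_ge j)) (eta_pos (P := P)),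
      mul_pos (zero_lt_one.trans_le (b_ge j')) (eta_pos (P := P))]

theorem K_inner (j : Fin P.N) : P.K j ⊆ ⋃ z ∈ P.Inner j, P.cube j z := fun x hx =>
  have : P.nu j x ∈ ucube fun i => ⌊P.nu j x i⌋ :=
    ⟨fun _ => Int.floor_le _, fun _ => (Int.lt_floor_add_one _).le⟩
  mem_biUnion ⟨x, hx, this⟩ this

theorem K_disj (j : Fin P.N) (z : Fin 3 → ℤ) (h : z ∉ P.Inner j) :
    Disjoint (P.cube j z) (P.K j) := disjoint_left.2 fun x h1 h2 => h ⟨x, h2, h1⟩

theorem inner_int (hO : P.Ok Ω) (j : Fin P.N) :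
    ∀ z ∈ P.Inner j, P.cube j z ⊆ interior (P.BufSet j) := by
  intro z hz x hx
  rw [Par.cube, mem_preimage] at hx
  have h1 : P.nu j x ∈ ⋃ z ∈ P.Inner j, ucube z := mem_iUnion₂.2 ⟨z, hz, hx⟩
  have h2 := thick_buf hO j
  generalize (⋃ z ∈ P.Inner j, ucube z) = X at h1 h2
  refine mem_interior.2 ⟨P.nu j ⁻¹' thickening 2 X, fun y hy => ?_,
    isOpen_thickening.preimage (nu_cont j),
    mem_preimage.2 (self_subset_thickening two_pos _ h1)⟩
  obtain ⟨z, h2, h3⟩ := mem_iUnion₂.1 (h2 (mem_preimage.1 hy))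
  exact ⟨z, h2, h3⟩

end P073.Cube
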